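import Crest.Agent.LpDim.Defs

/-! # S0359, task T1 : sign of the scalar Clarkson defect -/

namespace Crest.Agent.LpDim

theorem defect_eq_zero_of_mul_eq_zero {q a b : ℝ} (hq : 0 < q) (h : a * b = 0) :
    defect q a b = 0 := by
  rcases mul_eq_zero.mp h with rfl | rfl
  · simp only [defect, zero_add, zero_sub, abs_neg, abs_zero, Real.zero_rpow hq.ne']
    ring
  · simp only [defect, add_zero, sub_zero, abs_zero, Real.zero_rpow hq.ne']
    ring

/-- `|x|^q = (x^2)^(q/2)`. -/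
private theorem abs_rpow_eq (q x : ℝ) : |x| ^ q = (x ^ 2) ^ (q / 2) := by
  rw [← sq_abs, ← Real.rpow_natCast, ← Real.rpow_mul (abs_nonneg x)]
  congr 1
  push_cast
  ring

/-- strict superadditivity of `t ↦ t^r`, `r > 1`. -/
private theorem add_rpow_lt {r A B : ℝ} (hr : 1 < r) (hA : 0 < A) (hB : 0 < B) :
    A ^ r + B ^ r < (A + B) ^ r := by
  have hAB : 0 < A + B := by positivity
  have e : ∀ x : ℝ, 0 < x → x ^ r = x * x ^ (r - 1) := by
    intro x hx
    rw [Real.rpow_sub_one hx.ne']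
    field_simp
  have h1 : A ^ (r - 1) < (A + B) ^ (r - 1) :=
    Real.rpow_lt_rpow hA.le (by linarith) (by linarith)
  have h2 : B ^ (r - 1) < (A + B) ^ (r - 1) :=
    Real.rpow_lt_rpow hB.le (by linarith) (by linarith)
  rw [e A hA, e B hB, e (A + B) hAB]
  nlinarith [mul_lt_mul_of_pos_left h1 hA, mul_lt_mul_of_pos_left h2 hB]

/-- strict subadditivity of `t ↦ t^r`, `r < 1`. -/
private theorem rpow_add_lt {r A B : ℝ} (hr : r < 1) (hA : 0 < A) (hB : 0 < B) :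
    (A + B) ^ r < A ^ r + B ^ r := by
  have hAB : 0 < A + B := by positivity
  have e : ∀ x : ℝ, 0 < x → x ^ r = x * x ^ (r - 1) := by
    intro x hx
    rw [Real.rpow_sub_one hx.ne']
    field_simp
  have h1 : (A + B) ^ (r - 1) < A ^ (r - 1) :=
    Real.rpow_lt_rpow_of_neg hA (by linarith) (by linarith)
  have h2 : (A + B) ^ (r - 1) < B ^ (r - 1) :=
    Real.rpow_lt_rpow_of_neg hB (by linarith) (by linarith)
  rw [e A hA, e B hB, e (A + B) hAB]
  nlinarith [mul_lt_mul_of_pos_left h1 hA, mul_lt_mul_of_pos_left h2 hB]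

theorem defect_pos {q a b : ℝ} (hq : 2 < q) (ha : a ≠ 0) (hb : b ≠ 0) : 0 < defect q a b := by
  have hr : 1 < q / 2 := by linarith
  have hA : 0 < a ^ 2 := by positivity
  have hB : 0 < b ^ 2 := by positivity
  have h1 := add_rpow_lt hr hA hB
  have h2 := (convexOn_rpow hr.le).2
    (show (a + b) ^ 2 ∈ Set.Ici (0 : ℝ) from Set.mem_Ici.mpr (sq_nonneg _))
    (show (a - b) ^ 2 ∈ Set.Ici (0 : ℝ) from Set.mem_Ici.mpr (sq_nonneg _))
    (show (0 : ℝ) ≤ 1 / 2 by norm_num) (show (0 : ℝ) ≤ 1 / 2 by norm_num) (by norm_num)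
  simp only [smul_eq_mul] at h2
  have e : (1 / 2 : ℝ) * (a + b) ^ 2 + 1 / 2 * (a - b) ^ 2 = a ^ 2 + b ^ 2 := by ring
  rw [e] at h2
  unfold defect
  rw [abs_rpow_eq q (a + b), abs_rpow_eq q (a - b), abs_rpow_eq q a, abs_rpow_eq q b]
  linarith

theorem defect_neg {q a b : ℝ} (hq0 : 0 < q) (hq : q < 2) (ha : a ≠ 0) (hb : b ≠ 0) :
    defect q a b < 0 := by
  have hr : q / 2 < 1 := by linarith
  have hr0 : 0 ≤ q / 2 := by linarith
  have hA : 0 < a ^ 2 := by positivity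
  have hB : 0 < b ^ 2 := by positivity
  have h1 := rpow_add_lt hr hA hB
  have h2 := (Real.concaveOn_rpow hr0 hr.le).2
    (show (a + b) ^ 2 ∈ Set.Ici (0 : ℝ) from Set.mem_Ici.mpr (sq_nonneg _))
    (show (a - b) ^ 2 ∈ Set.Ici (0 : ℝ) from Set.mem_Ici.mpr (sq_nonneg _))
    (show (0 : ℝ) ≤ 1 / 2 by norm_num) (show (0 : ℝ) ≤ 1 / 2 by norm_num) (by norm_num)
  simp only [smul_eq_mul] at h2
  have e : (1 / 2 : ℝ) * (a + b) ^ 2 + 1 / 2 * (a - b) ^ 2 = a ^ 2 + b ^ 2 := by ring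
  rw [e] at h2
  unfold defect
  rw [abs_rpow_eq q (a + b), abs_rpow_eq q (a - b), abs_rpow_eq q a, abs_rpow_eq q b]
  linarith

end Crest.Agent.LpDim
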