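import Crest.Agent.LpDim.Defs

/-! # S0359, task T5 : the counting core -/

namespace Crest.Agent.LpDim

/-- `m` pairwise disjointly supported vectors `U i`, `m` pairwise disjointly supported `V j`,
all supports `supp U i ∩ supp V j` nonempty: the index set has at least `m ^ 2` elements. -/
theorem sq_le_of_supports {m d : ℕ} (U V : Fin m → Fin d → ℝ)
    (hU : ∀ i i', i ≠ i' → ∀ k, U i k * U i' k = 0)
    (hV : ∀ j j', j ≠ j' → ∀ k, V j k * V j' k = 0)
    (hUV : ∀ i j, ∃ k, U i k ≠ 0 ∧ V j k ≠ 0) : m ^ 2 ≤ d := by
  classical
  choose f hf using hUV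
  have hinj : Function.Injective (fun a : Fin m × Fin m => f a.1 a.2) := by
    rintro ⟨i, j⟩ ⟨i', j'⟩ h
    simp only at h
    have h1 : i = i' := by
      by_contra hne
      have := hU i i' hne (f i j)
      rcases mul_eq_zero.1 this with h0 | h0
      · exact (hf i j).1 h0
      · rw [h] at h0; exact (hf i' j').1 h0
    have h2 : j = j' := by
      by_contra hne
      have := hV j j' hne (f i j)
      rcases mul_eq_zero.1 this with h0 | h0
      · exact (hf i j).2 h0
      · rw [h] at h0; exact (hf i' j').2 h0
    rw [h1, h2]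
  have := Fintype.card_le_of_injective _ hinj
  simpa [Fintype.card_prod, sq] using this

end Crest.Agent.LpDim
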