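import Crest.Agent.LpDim.Vector
import Crest.Agent.LpDim.Core

/-! # S0359, task T7 : the configuration `0, ± row indicators, ± column indicators` -/

namespace Crest.Agent.LpDim

/-- `base false i` is the indicator of row `i`, `base true j` the indicator of column `j`
of the `m × m` grid. -/
noncomputable def base {m : ℕ} (r : Bool) (i : Fin m) : Fin m × Fin m → ℝ :=
  fun a => if (if r then a.2 else a.1) = i then 1 else 0

/-- The `4 m + 1` points: `none ↦ 0`, `some (r, sgn, i) ↦ ± base r i` (`sgn = true` is `-`). -/
noncomputable def conf {m : ℕ} (o : Option (Bool × Bool × Fin m)) : Fin m × Fin m → ℝ :=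
  fun a => o.elim 0 (fun t => (if t.2.1 then -1 else 1) * base t.1 t.2.2 a)

theorem conf_none {m : ℕ} (t : Fin m × Fin m) : conf (none : Option (Bool × Bool × Fin m)) t = 0 := by
  simp [conf]

theorem conf_pos {m : ℕ} (r : Bool) (i : Fin m) (t : Fin m × Fin m) :
    conf (some (r, false, i)) t = base r i t := by
  simp [conf]

theorem conf_neg {m : ℕ} (r : Bool) (i : Fin m) (t : Fin m × Fin m) :
    conf (some (r, true, i)) t = - base r i t := by
  simp [conf]

theorem pw_two_mul {ι : Type*} [Fintype ι] {q : ℝ} (g : ι → ℝ) :
    pw q (fun t => g t + g t) = 2 ^ q * pw q g := by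
  unfold pw
  rw [Finset.mul_sum]
  refine Finset.sum_congr rfl fun t _ => ?_
  show |g t + g t| ^ q = 2 ^ q * |g t| ^ q
  rw [← two_mul, abs_mul, Real.mul_rpow (abs_nonneg _) (abs_nonneg _)]
  simp

theorem base_mul_base_same {m : ℕ} (r : Bool) {i i' : Fin m} (h : i ≠ i') (t : Fin m × Fin m) :
    base r i t * base r i' t = 0 := by
  unfold base
  by_cases h1 : (if r then t.2 else t.1) = i
  · have h2 : (if r then t.2 else t.1) ≠ i' := by rw [h1]; exact h
    simp [h2]
  · simp [h1]

theorem defect_one_one {q : ℝ} (hq0 : 0 < q) : defect q 1 1 = 2 ^ q - 4 := by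
  unfold defect
  have h0 : |(1 : ℝ) - 1| ^ q = 0 := by
    simp [Real.zero_rpow hq0.ne']
  have h2 : |(1 : ℝ) + 1| = 2 := by norm_num
  rw [h0, h2]
  simp
  ring

theorem sum_defect_row_col {m : ℕ} {q : ℝ} (hq0 : 0 < q) (i j : Fin m) :
    ∑ t, defect q (base false i t) (base true j t) = 2 ^ q - 4 := by
  rw [Finset.sum_eq_single (i, j)]
  · simp [base, defect_one_one hq0]
  · intro t _ ht
    apply defect_eq_zero_of_mul_eq_zero hq0
    unfold base
    by_cases h1 : t.1 = i
    · by_cases h2 : t.2 = j
      · exact absurd (Prod.ext h1 h2) ht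
      · simp [h2]
    · simp [h1]
  · intro h
    exact absurd (Finset.mem_univ _) h

theorem two_rpow_sub_four_ne {q : ℝ} (hq2 : q ≠ 2) : (2 : ℝ) ^ q - 4 ≠ 0 := by
  intro h
  apply hq2
  have h4 : (2 : ℝ) ^ q = 2 ^ (2 : ℝ) := by
    have : (2 : ℝ) ^ (2 : ℝ) = 4 := by norm_num
    linarith
  exact (Real.rpow_right_inj (by norm_num) (by norm_num)).1 h4

/-- Any map of the configuration into `ℝ^d` multiplying all `q`-th power distances by `c > 0`
forces `m ^ 2 ≤ d` (`1 < q`, `q ≠ 2`). -/
theorem main_config {m d : ℕ} {q c : ℝ} (hq1 : 1 < q) (hq2 : q ≠ 2) (hc : 0 < c)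
    (Y : Option (Bool × Bool × Fin m) → Fin d → ℝ)
    (hY : ∀ a b, pw q (fun k => Y a k - Y b k) = c * pw q (fun t => conf a t - conf b t)) :
    m ^ 2 ≤ d := by
  have hq0 : 0 < q := by linarith
  -- the vectors `W r i = Y(+) - Y(0)` and `W' r i = Y(0) - Y(-)`
  set W : Bool → Fin m → Fin d → ℝ := fun r i k => Y (some (r, false, i)) k - Y none k with hW
  set W' : Bool → Fin m → Fin d → ℝ := fun r i k => Y none k - Y (some (r, true, i)) k with hW'
  have hWW' : ∀ r i, W r i = W' r i := by
    intro r i
    apply eq_of_pw_add hq1 (R := c * pw q (base r i))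
    · have := hY (some (r, false, i)) none
      simp only [conf_none, conf_pos, sub_zero] at this
      exact this
    · have := hY none (some (r, true, i))
      simp only [conf_none, conf_neg, zero_sub, neg_neg] at this
      exact this
    · have := hY (some (r, false, i)) (some (r, true, i))
      simp only [conf_pos, conf_neg, sub_neg_eq_add] at this
      rw [pw_two_mul] at this
      have h2 : (fun k => W r i k + W' r i k)
          = fun k => Y (some (r, false, i)) k - Y (some (r, true, i)) k := by
        funext k; simp only [hW, hW']; ring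
      rw [h2, this]; ring
  -- transfer of the Clarkson defect
  have hdef : ∀ r i r' i', ∑ k, defect q (W r i k) (W r' i' k)
      = c * ∑ t, defect q (base r i t) (base r' i' t) := by
    intro r i r' i'
    rw [← pw_defect, ← pw_defect]
    have h1 : pw q (fun k => W r i k + W r' i' k)
        = c * pw q (fun t => base r i t + base r' i' t) := by
      have := hY (some (r, false, i)) (some (r', true, i'))
      simp only [conf_pos, conf_neg, sub_neg_eq_add] at this
      rw [← this, hWW' r' i']
      congr 1
      funext k; simp only [hW, hW']; ring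
    have h2 : pw q (fun k => W r i k - W r' i' k)
        = c * pw q (fun t => base r i t - base r' i' t) := by
      have := hY (some (r, false, i)) (some (r', false, i'))
      simp only [conf_pos] at this
      rw [← this]
      congr 1
      funext k; simp only [hW]; ring
    have h3 : ∀ r i, pw q (W r i) = c * pw q (base r i) := by
      intro r i
      have := hY (some (r, false, i)) none
      simp only [conf_none, conf_pos, sub_zero] at this
      exact this
    rw [h1, h2, h3 r i, h3 r' i']; ring
  have hdisj : ∀ r i i', i ≠ i' → ∀ k, W r i k * W r i' k = 0 := by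
    intro r i i' hii' k
    apply mul_eq_zero_of_defect hq0 hq2 (a := W r i) (b := W r i')
    rw [hdef, Finset.sum_eq_zero, mul_zero]
    intro t _
    exact defect_eq_zero_of_mul_eq_zero hq0 (base_mul_base_same r hii' t)
  refine sq_le_of_supports (W false) (W true) (hdisj false) (hdisj true) ?_
  intro i j
  apply exists_of_defect hq0
  rw [hdef, sum_defect_row_col hq0]
  exact mul_ne_zero hc.ne' (two_rpow_sub_four_ne hq2)

end Crest.Agent.LpDim
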