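import Mathlib

/-!
# S0359 : definitions (scalar Clarkson defect, `q`-th power sums)
-/

namespace Crest.Agent.LpDim

/-- The scalar Clarkson defect `|a+b|^q + |a-b|^q - 2|a|^q - 2|b|^q`. -/
noncomputable def defect (q a b : ℝ) : ℝ :=
  |a + b| ^ q + |a - b| ^ q - 2 * |a| ^ q - 2 * |b| ^ q

/-- The `q`-th power sum `∑ |w k|^q` of a finitely indexed real family. -/
noncomputable def pw {ι : Type*} [Fintype ι] (q : ℝ) (w : ι → ℝ) : ℝ :=
  ∑ k, |w k| ^ q

end Crest.Agent.LpDim
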