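import Mathlib

/-! # S0359, task T6 : from injective `Fin n`-families to arbitrary small finite families -/

namespace Crest.Agent.LpDim

/-- If every injective `Fin n`-family in an infinite normed group `X` can be mapped to `Z`
with all distances multiplied by a common factor, so can every family indexed by a type with at
most `n` elements (injective or not). -/
theorem extend_family {X Z : Type*} [NormedAddCommGroup X] [Infinite X] [NormedAddCommGroup Z]
    {n : ℕ}
    (hd : ∀ x : Fin n → X, Function.Injective x →
      ∃ (y : Fin n → Z) (s : ℝ), 0 < s ∧ ∀ i j, ‖y i - y j‖ = s * ‖x i - x j‖)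
    {κ : Type*} [Fintype κ] (hκ : Fintype.card κ ≤ n) (P : κ → X) :
    ∃ (Y : κ → Z) (s : ℝ), 0 < s ∧ ∀ a b, ‖Y a - Y b‖ = s * ‖P a - P b‖ := by
  classical
  have hS : (Finset.univ.image P).card ≤ n :=
    le_trans Finset.card_image_le (by simpa using hκ)
  obtain ⟨T, hST, hT⟩ := Infinite.exists_superset_card_eq (Finset.univ.image P) n hS
  let e : T ≃ Fin n := Finset.equivFinOfCardEq hT
  obtain ⟨y, s, hs, hy⟩ := hd (fun t => ((e.symm t : T) : X))
    (Subtype.val_injective.comp e.symm.injective)
  have hmem : ∀ a, P a ∈ T := fun a => hST (Finset.mem_image_of_mem P (Finset.mem_univ a))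
  refine ⟨fun a => y (e ⟨P a, hmem a⟩), s, hs, fun a b => ?_⟩
  rw [hy]
  simp

end Crest.Agent.LpDim
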