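import Crest.Agent.LpDim.Defs

/-! # S0359, task T2 : scalar strict convexity of `|.|^q` at the midpoint -/

namespace Crest.Agent.LpDim

private theorem two_rpow_split (q : ℝ) : (2:ℝ) ^ q = 2 * 2 ^ (q - 1) := by
  have h : (2:ℝ) ^ q = 2 ^ (1 + (q - 1)) := by congr 1; ring
  rw [h, Real.rpow_add (by norm_num : (0:ℝ) < 2), Real.rpow_one]

private theorem add_rpow_split {q : ℝ} {a b : ℝ} (ha : 0 ≤ a) (hb : 0 ≤ b) :
    (a + b) ^ q = 2 * 2 ^ (q - 1) * ((1/2 : ℝ) * a + (1/2 : ℝ) * b) ^ q := by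
  have h : a + b = 2 * ((1/2 : ℝ) * a + (1/2 : ℝ) * b) := by ring
  have h0 : 0 ≤ (1/2 : ℝ) * a + (1/2 : ℝ) * b := by positivity
  conv_lhs => rw [h]
  rw [Real.mul_rpow (by norm_num) h0, two_rpow_split]

private theorem nonneg_lt {q : ℝ} (hq : 1 < q) {a b : ℝ} (ha : 0 ≤ a) (hb : 0 ≤ b) (hab : a ≠ b) :
    (a + b) ^ q < 2 ^ (q - 1) * (a ^ q + b ^ q) := by
  have hs := (strictConvexOn_rpow hq).2 (Set.mem_Ici.2 ha) (Set.mem_Ici.2 hb) hab
    (by norm_num : (0:ℝ) < 1/2) (by norm_num : (0:ℝ) < 1/2) (by norm_num)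
  simp only [smul_eq_mul] at hs
  have hpos : (0:ℝ) < 2 ^ (q - 1) := Real.rpow_pos_of_pos (by norm_num) _
  rw [add_rpow_split ha hb]
  have := mul_lt_mul_of_pos_left hs (by positivity : (0:ℝ) < 2 * 2 ^ (q - 1))
  calc 2 * 2 ^ (q - 1) * ((1/2 : ℝ) * a + (1/2 : ℝ) * b) ^ q
      < 2 * 2 ^ (q - 1) * ((1/2 : ℝ) * a ^ q + (1/2 : ℝ) * b ^ q) := this
    _ = 2 ^ (q - 1) * (a ^ q + b ^ q) := by ring

private theorem nonneg_le {q : ℝ} (hq : 1 < q) {a b : ℝ} (ha : 0 ≤ a) (hb : 0 ≤ b) :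
    (a + b) ^ q ≤ 2 ^ (q - 1) * (a ^ q + b ^ q) := by
  by_cases hab : a = b
  · subst hab
    rw [add_rpow_split ha ha]
    have : (1/2 : ℝ) * a + (1/2 : ℝ) * a = a := by ring
    rw [this]
    apply le_of_eq
    ring
  · exact (nonneg_lt hq ha hb hab).le

theorem midpoint_le {q : ℝ} (hq : 1 < q) (x y : ℝ) :
    |x + y| ^ q ≤ 2 ^ (q - 1) * (|x| ^ q + |y| ^ q) := by
  calc |x + y| ^ q ≤ (|x| + |y|) ^ q :=
        Real.rpow_le_rpow (abs_nonneg _) (abs_add_le x y) (by linarith)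
    _ ≤ 2 ^ (q - 1) * (|x| ^ q + |y| ^ q) := nonneg_le hq (abs_nonneg _) (abs_nonneg _)

theorem midpoint_eq {q : ℝ} (hq : 1 < q) {x y : ℝ}
    (h : |x + y| ^ q = 2 ^ (q - 1) * (|x| ^ q + |y| ^ q)) : x = y := by
  have h1 : |x + y| ^ q ≤ (|x| + |y|) ^ q :=
    Real.rpow_le_rpow (abs_nonneg _) (abs_add_le x y) (by linarith)
  have hxy : |x| = |y| := by
    by_contra hne
    have := nonneg_lt hq (abs_nonneg x) (abs_nonneg y) hne
    linarith
  have h2 : (|x| + |y|) ^ q ≤ 2 ^ (q - 1) * (|x| ^ q + |y| ^ q) :=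
    nonneg_le hq (abs_nonneg _) (abs_nonneg _)
  have h3 : |x + y| ^ q = (|x| + |y|) ^ q := le_antisymm h1 (by linarith)
  have h4 : |x + y| = |x| + |y| := by
    have hq0 : q ≠ 0 := by linarith
    have := congrArg (fun t : ℝ => t ^ (1 / q)) h3
    beta_reduce at this
    rwa [← Real.rpow_mul (abs_nonneg _), ← Real.rpow_mul (by positivity), mul_one_div_cancel hq0,
      Real.rpow_one, Real.rpow_one] at this
  rcases abs_eq_abs.1 hxy with h5 | h5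
  · exact h5
  · subst h5
    simp at h4
    have hy : y = 0 := by
      have : |y| = 0 := by linarith [abs_nonneg y]
      exact abs_eq_zero.1 this
    simp [hy]

end Crest.Agent.LpDim
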