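import Crest.Agent.LpDim.Defs

/-! # S0359, task T3 : norms in `Lp` over a finite counting measure and in `PiLp` as power sums -/

namespace Crest.Agent.LpDim

open MeasureTheory
open scoped ENNReal

/-- A real function on a finite discrete type as an element of `Lp` of the counting measure. -/
noncomputable def toLpCount {ι : Type} [Fintype ι] [MeasurableSpace ι] [DiscreteMeasurableSpace ι]
    (p : ℝ≥0∞) (g : ι → ℝ) : Lp ℝ p (Measure.count : Measure ι) :=
  (MemLp.of_discrete : MemLp g p (Measure.count : Measure ι)).toLp g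

theorem toReal_pos_of_fact (p : ℝ≥0∞) [Fact (1 ≤ p)] (hptop : p ≠ ⊤) : 0 < p.toReal := by
  have h1 : (1 : ℝ≥0∞) ≤ p := Fact.out
  exact ENNReal.toReal_pos (by intro h; rw [h] at h1; simp at h1) hptop

theorem norm_toLpCount_sub {ι : Type} [Fintype ι] [MeasurableSpace ι] [DiscreteMeasurableSpace ι]
    (p : ℝ≥0∞) [Fact (1 ≤ p)] (hptop : p ≠ ⊤) (g h : ι → ℝ) :
    ‖toLpCount p g - toLpCount p h‖ ^ p.toReal = pw p.toReal (fun a => g a - h a) := by
  have hq : 0 < p.toReal := toReal_pos_of_fact p hptop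
  have hp0 : p ≠ 0 := by
    intro h0; rw [h0] at hq; simp at hq
  unfold toLpCount
  rw [← MemLp.toLp_sub, Lp.norm_toLp, eLpNorm_eq_lintegral_rpow_enorm_toReal hp0 hptop,
    lintegral_count, tsum_fintype]
  rw [← ENNReal.toReal_rpow, ← Real.rpow_mul ENNReal.toReal_nonneg, one_div,
    inv_mul_cancel₀ hq.ne', Real.rpow_one,
    ENNReal.toReal_sum (fun a _ => by
      exact ENNReal.rpow_ne_top_of_nonneg hq.le enorm_ne_top)]
  unfold pw
  refine Finset.sum_congr rfl fun a _ => ?_
  rw [← ENNReal.toReal_rpow, toReal_enorm, Real.norm_eq_abs]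
  rfl

theorem norm_piLp_sub {d : ℕ} (p : ℝ≥0∞) [Fact (1 ≤ p)] (hptop : p ≠ ⊤)
    (v w : PiLp p (fun _ : Fin d => ℝ)) :
    ‖v - w‖ ^ p.toReal = pw p.toReal (fun k => v k - w k) := by
  have hq : 0 < p.toReal := toReal_pos_of_fact p hptop
  rw [PiLp.norm_eq_sum hq, ← Real.rpow_mul (Finset.sum_nonneg fun k _ => by positivity), one_div,
    inv_mul_cancel₀ hq.ne', Real.rpow_one]
  unfold pw
  refine Finset.sum_congr rfl fun k _ => ?_
  rw [Real.norm_eq_abs]
  rfl

theorem infinite_Lp_count {ι : Type} [Fintype ι] [Nonempty ι] [MeasurableSpace ι]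
    [DiscreteMeasurableSpace ι] (p : ℝ≥0∞) [Fact (1 ≤ p)] (hptop : p ≠ ⊤) :
    Infinite (Lp ℝ p (Measure.count : Measure ι)) := by
  have hq : 0 < p.toReal := toReal_pos_of_fact p hptop
  apply Infinite.of_injective (fun c : ℝ => toLpCount p (fun _ : ι => c))
  intro c c' hcc
  simp only at hcc
  have h := norm_toLpCount_sub p hptop (fun _ : ι => c) (fun _ : ι => c')
  rw [hcc, sub_self, norm_zero, Real.zero_rpow hq.ne'] at h
  unfold pw at h
  have h2 := (Finset.sum_eq_zero_iff_of_nonneg (fun a _ => by positivity)).1 h.symm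
    (Classical.arbitrary ι) (Finset.mem_univ _)
  have h3 : |c - c'| = 0 := by
    by_contra hne
    have : 0 < |c - c'| ^ p.toReal := Real.rpow_pos_of_pos (lt_of_le_of_ne (abs_nonneg _) (Ne.symm hne)) _
    linarith
  exact sub_eq_zero.1 (abs_eq_zero.1 h3)

end Crest.Agent.LpDim
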