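import Crest.Agent.LpDim.Clarkson
import Crest.Agent.LpDim.Midpoint

/-! # S0359, task T4 : vector versions (sums over a finite index type) of the scalar lemmas -/

namespace Crest.Agent.LpDim

variable {ι : Type*} [Fintype ι]

/-- The Clarkson defect of two vectors is the sum of the scalar defects. -/
theorem pw_defect (q : ℝ) (a b : ι → ℝ) :
    pw q (fun k => a k + b k) + pw q (fun k => a k - b k) - 2 * pw q a - 2 * pw q b
      = ∑ k, defect q (a k) (b k) := by
  unfold pw defect
  simp only [Finset.sum_sub_distrib, Finset.sum_add_distrib, Finset.mul_sum]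

/-- Midpoint rigidity: `‖a‖ = ‖b‖`, `‖a + b‖ = 2 ‖a‖` forces `a = b`. -/
theorem eq_of_pw_add {q : ℝ} (hq : 1 < q) {a b : ι → ℝ} {R : ℝ}
    (ha : pw q a = R) (hb : pw q b = R) (hab : pw q (fun k => a k + b k) = 2 ^ q * R) :
    a = b := by
  have h2 : (2 : ℝ) ^ q = 2 ^ (q - 1) * 2 := by
    rw [Real.rpow_sub_one (by norm_num)]; ring
  have hsum : ∑ k, (2 ^ (q - 1) * (|a k| ^ q + |b k| ^ q) - |a k + b k| ^ q) = 0 := by
    rw [Finset.sum_sub_distrib, ← Finset.mul_sum, Finset.sum_add_distrib]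
    have e1 : ∑ k, |a k| ^ q = R := ha
    have e2 : ∑ k, |b k| ^ q = R := hb
    have e3 : ∑ k, |a k + b k| ^ q = 2 ^ q * R := hab
    rw [e1, e2, e3, h2]; ring
  have hz := (Finset.sum_eq_zero_iff_of_nonneg
    (fun k _ => sub_nonneg.2 (midpoint_le hq (a k) (b k)))).1 hsum
  funext k
  exact midpoint_eq hq (sub_eq_zero.1 (hz k (Finset.mem_univ k))).symm

/-- Zero Clarkson defect forces disjoint supports (`q ≠ 2`). -/
theorem mul_eq_zero_of_defect {q : ℝ} (hq0 : 0 < q) (hq2 : q ≠ 2) {a b : ι → ℝ}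
    (h : ∑ k, defect q (a k) (b k) = 0) (k : ι) : a k * b k = 0 := by
  by_contra hk
  have hak : a k ≠ 0 := left_ne_zero_of_mul hk
  have hbk : b k ≠ 0 := right_ne_zero_of_mul hk
  rcases lt_or_gt_of_ne hq2 with hlt | hgt
  · -- all defects are `≤ 0`
    have hle : ∀ j ∈ Finset.univ, 0 ≤ - defect q (a j) (b j) := by
      intro j _
      by_cases hj : a j * b j = 0
      · rw [defect_eq_zero_of_mul_eq_zero hq0 hj]; simp
      · exact (neg_pos.2 (defect_neg hq0 hlt (left_ne_zero_of_mul hj)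
          (right_ne_zero_of_mul hj))).le
    have hs : ∑ j, - defect q (a j) (b j) = 0 := by
      rw [Finset.sum_neg_distrib, h, neg_zero]
    have := (Finset.sum_eq_zero_iff_of_nonneg hle).1 hs k (Finset.mem_univ k)
    have h3 := defect_neg hq0 hlt hak hbk
    linarith
  · have hle : ∀ j ∈ Finset.univ, 0 ≤ defect q (a j) (b j) := by
      intro j _
      by_cases hj : a j * b j = 0
      · rw [defect_eq_zero_of_mul_eq_zero hq0 hj]
      · exact (defect_pos hgt (left_ne_zero_of_mul hj) (right_ne_zero_of_mul hj)).le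
    have := (Finset.sum_eq_zero_iff_of_nonneg hle).1 h k (Finset.mem_univ k)
    have h3 := defect_pos hgt hak hbk
    linarith

/-- Nonzero Clarkson defect forces a common point of the supports. -/
theorem exists_of_defect {q : ℝ} (hq0 : 0 < q) {a b : ι → ℝ}
    (h : ∑ k, defect q (a k) (b k) ≠ 0) : ∃ k, a k ≠ 0 ∧ b k ≠ 0 := by
  by_contra hne
  push Not at hne
  apply h
  apply Finset.sum_eq_zero
  intro k _
  apply defect_eq_zero_of_mul_eq_zero hq0
  by_cases hk : a k = 0
  · simp [hk]
  · simp [hne k hk]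

end Crest.Agent.LpDim
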